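import Vale.Agent.P251.H.PQColim
import Vale.Agent.P251.H.PQLC
import Mathlib.Topology.UrysohnsLemma

/-!
# P251C: tame quasi-topological spaces

`top X` is the final topology of a pointed quasi-topological space.  If `X` is `Tame`, then
`top X` is Hausdorff and every continuous map from a compact Hausdorff space is a plot.
-/

set_option autoImplicit false

open CategoryTheory MonoidalCategory Limits Topology OnePoint Set

namespace Vale.Agent.P251CT

open Vale.Agent.P251.H Vale.Agent.P251.H.PQ Vale.Agent.P251.G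

/-- The final topology with respect to the plots. -/
@[reducible] def top (X : PQ) : TopologicalSpace (OnePoint X) where
  IsOpen U := ∀ (K : CH) (f : K → OnePoint X), X.plot K f → IsOpen (f ⁻¹' U)
  isOpen_univ := fun _ _ _ => isOpen_univ
  isOpen_inter := fun _ _ h1 h2 K f hf => (h1 K f hf).inter (h2 K f hf)
  isOpen_sUnion := fun s h K f hf => by
    rw [preimage_sUnion]
    exact isOpen_biUnion fun t ht => h t ht K f hf

theorem cont_plot {X : PQ} {K : CH} {f : K → OnePoint X} (hf : X.plot K f) :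
    Continuous[_, top X] f :=
  @Continuous.mk _ _ _ (top X) _ (fun _ h => h K f hf)

theorem cont_top {X : PQ} {Z : Type*} [TopologicalSpace Z] {g : OnePoint X → Z}
    (h : ∀ (K : CH) (f : K → OnePoint X), X.plot K f → Continuous fun k => g (f k)) :
    Continuous[top X, _] g :=
  @Continuous.mk _ _ (top X) _ _ (fun _ hU K f hf => hU.preimage (h K f hf))

theorem cont_app {X Y : PQ} (u : X ⟶ Y) : Continuous[top X, top Y] (app u) :=
  @Continuous.mk _ _ (top X) (top Y) _ (fun _ hU K _ hf => hU K _ (app_plot u hf))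

/-- Real functions vanishing at the base point, continuous on plots. -/
structure Fn (X : PQ) (φ : OnePoint X → ℝ) : Prop where
  base : φ ∞ = 0
  cont : ∀ (K : CH) (f : K → OnePoint X), X.plot K f → Continuous fun k => φ (f k)

theorem Fn.zero (X : PQ) : Fn X fun _ => 0 := ⟨rfl, fun _ _ _ => continuous_const⟩

theorem Fn.comp {X Y : PQ} {φ : OnePoint Y → ℝ} (h : Fn Y φ) (u : X ⟶ Y) :
    Fn X fun x => φ (app u x) :=
  ⟨by rw [app_infty, h.base], fun K _ hf => h.cont K _ (app_plot u hf)⟩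

/-- The real line pointed at `0`. -/
noncomputable def RQ : PQ where
  carrier := Pt ℝ 0
  plot _ f := Continuous fun k => Pt.equiv ℝ 0 (f k)
  plot_const _ _ := continuous_const
  plot_comp _ _ hg hf := hf.comp hg
  plot_sum _ h1 h2 := continuous_sum_dom.mpr ⟨h1, h2⟩
  plot_surj _ _ hg hs hf :=
    (IsQuotientMap.of_surjective_continuous hs hg).continuous_iff.mpr hf

/-- the value of a point of `RQ` -/
noncomputable def val (x : OnePoint RQ) : ℝ := Pt.equiv ℝ 0 x

theorem fn_val : Fn RQ val := ⟨rfl, fun _ _ h => h⟩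

/-- the morphism given by a function -/
noncomputable def Fn.hom {X : PQ} {φ : OnePoint X → ℝ} (h : Fn X φ) : X ⟶ RQ :=
  ⟨fun x => (Pt.equiv ℝ 0).symm (φ x), by rw [h.base]; exact Pt.equiv_symm_base ℝ 0,
    fun K f hf => by
      change Continuous fun k => Pt.equiv ℝ 0 ((Pt.equiv ℝ 0).symm (φ (f k)))
      simp only [Equiv.apply_symm_apply]
      exact h.cont K f hf⟩

theorem Fn.val_hom {X : PQ} {φ : OnePoint X → ℝ} (h : Fn X φ) (x : OnePoint X) :
    val (app h.hom x) = φ x := (Pt.equiv ℝ 0).apply_symm_apply _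

theorem hom_ext_val {X : PQ} {u v : X ⟶ RQ} (h : ∀ x, val (app u x) = val (app v x)) : u = v :=
  hom_ext' fun x => (Pt.equiv ℝ 0).injective (h x)

/-- Functions on a colimit. -/
theorem exists_desc {J : Type} [Category.{0} J] {F : J ⥤ PQ} {c : Cocone F} (hc : IsColimit c)
    (φ : ∀ j, OnePoint (F.obj j) → ℝ) (h : ∀ j, Fn _ (φ j))
    (w : ∀ {i j : J} (f : i ⟶ j) x, φ j (app (F.map f) x) = φ i x) :
    ∃ χ, Fn c.pt χ ∧ ∀ j x, χ (app (c.ι.app j) x) = φ j x := by
  let s : Cocone F :=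
    { pt := RQ
      ι := { app := fun j => (h j).hom
             naturality := fun i j f => hom_ext_val fun x => by
               change val (app (h j).hom (app (F.map f) x)) = val (app (h i).hom x)
               rw [Fn.val_hom, Fn.val_hom, w] } }
  refine ⟨_, fn_val.comp (hc.desc s), fun j x => ?_⟩
  have := congrArg (fun u => val (app u x)) (hc.fac s j)
  exact this.trans ((h j).val_hom x)

/-- Subsets of images of plots. -/
def Bdd (X : PQ) (s : Set (OnePoint X)) : Prop :=
  ∃ (K : CH) (f : K → OnePoint X), X.plot K f ∧ s ⊆ range f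

theorem Bdd.mono {X : PQ} {s t : Set (OnePoint X)} (h : Bdd X t) (hs : s ⊆ t) : Bdd X s := by
  obtain ⟨K, f, hf, h⟩ := h
  exact ⟨K, f, hf, hs.trans h⟩

theorem Bdd.union {X : PQ} {s t : Set (OnePoint X)} (hs : Bdd X s) (ht : Bdd X t) :
    Bdd X (s ∪ t) := by
  obtain ⟨K, f, hf, hs⟩ := hs
  obtain ⟨L, g, hg, ht⟩ := ht
  refine ⟨CH.sum K L, Sum.elim f g, X.plot_sum _ hf hg, ?_⟩
  rw [Sum.elim_range]
  exact union_subset_union hs ht

theorem bdd_singleton (X : PQ) (x : OnePoint X) : Bdd X {x} :=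
  ⟨CH.of Unit, fun _ => x, X.plot_const _ x, by rintro _ rfl; exact ⟨(), rfl⟩⟩

theorem bdd_empty (X : PQ) : Bdd X ∅ := (bdd_singleton X ∞).mono (empty_subset _)

theorem bdd_range {X : PQ} {K : CH} {f : K → OnePoint X} (hf : X.plot K f) : Bdd X (range f) :=
  ⟨K, f, hf, Subset.rfl⟩

theorem Bdd.image {X Y : PQ} {s : Set (OnePoint X)} (h : Bdd X s) (u : X ⟶ Y) :
    Bdd Y (app u '' s) := by
  obtain ⟨K, f, hf, h⟩ := h
  refine ⟨K, _, app_plot u hf, ?_⟩
  rintro _ ⟨x, hx, rfl⟩
  obtain ⟨k, rfl⟩ := h hx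
  exact ⟨k, rfl⟩

theorem bdd_biUnion {X : PQ} {ι : Type*} {t : Set ι} (ht : t.Finite)
    {s : ι → Set (OnePoint X)} (h : ∀ i ∈ t, Bdd X (s i)) : Bdd X (⋃ i ∈ t, s i) := by
  induction t, ht using Set.Finite.induction_on with
  | empty => simpa using bdd_empty X
  | insert _ _ ih =>
    rw [biUnion_insert]
    exact (h _ (mem_insert _ _)).union (ih fun i hi => h i (mem_insert_of_mem _ hi))

theorem bdd_finite {X : PQ} {t : Set (OnePoint X)} (ht : t.Finite) : Bdd X t := by
  simpa using bdd_biUnion ht (s := fun x => {x}) fun x _ => bdd_singleton X x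

/-- Induction for ideals of sets of points. -/
theorem gen_ind {T : Type} {G : ∀ K : CH, (K → OnePoint T) → Prop}
    (I : Set (OnePoint T) → Prop) (mono : ∀ s t, s ⊆ t → I t → I s)
    (un : ∀ s t, I s → I t → I (s ∪ t)) (hc : ∀ x, I {x})
    (h : ∀ K f, G K f → I (range f)) {K : CH} {f : K → OnePoint T} (hf : Gen G K f) :
    I (range f) := by
  induction hf with
  | base f hf => exact h _ f hf
  | const K x => exact mono _ _ (by rintro _ ⟨_, rfl⟩; rfl) (hc x)
  | comp g f _ _ ih => exact mono _ _ (by rintro _ ⟨l, rfl⟩; exact ⟨_, rfl⟩) ih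
  | sum f _ _ ih1 ih2 =>
    refine mono _ _ ?_ (un _ _ ih1 ih2)
    rintro _ ⟨k | k, rfl⟩
    · exact Or.inl ⟨k, rfl⟩
    · exact Or.inr ⟨k, rfl⟩
  | surj g f _ hs _ ih =>
    refine mono _ _ ?_ ih
    rintro _ ⟨k, rfl⟩
    obtain ⟨l, rfl⟩ := hs k
    exact ⟨l, rfl⟩

theorem bdd_ind {J : Type} [Category.{0} J] {F : J ⥤ PQ} {c : Cocone F} (hc : IsColimit c)
    (I : Set (OnePoint c.pt) → Prop) (mono : ∀ s t, s ⊆ t → I t → I s)
    (un : ∀ s t, I s → I t → I (s ∪ t)) (h0 : I {∞})
    (h : ∀ j s, Bdd (F.obj j) s → I (app (c.ι.app j) '' s)) {s : Set (OnePoint c.pt)}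
    (hs : Bdd c.pt s) : I s := by
  obtain ⟨K, f, hf, hs⟩ := hs
  refine mono _ _ hs (gen_ind I mono un (fun x => ?_) ?_ (isColimit_plot hc hf))
  · rcases isColimit_exists hc x with rfl | ⟨j, y, rfl⟩
    · exact h0
    · have := h j _ (bdd_singleton _ y)
      rwa [image_singleton] at this
  · rintro K _ ⟨j, a, ha, rfl⟩
    refine mono _ _ ?_ (h j _ (bdd_range ha))
    rintro _ ⟨k, rfl⟩
    exact ⟨_, ⟨k, rfl⟩, rfl⟩

/-- Tame objects: functions separate the points, and each unbounded set contains an infinite set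
which meets each bounded set in a finite set. -/
structure Tame (X : PQ) : Prop where
  sep : ∀ x y : OnePoint X, x ≠ y → ∃ φ, Fn X φ ∧ φ x ≠ φ y
  fin : ∀ s, ¬ Bdd X s → ∃ t ⊆ s, t.Infinite ∧ ∀ b, Bdd X b → (t ∩ b).Finite

theorem Tame.sep' {X : PQ} (h : Tame X) {x y : OnePoint X} (hx : x ≠ ∞) (hy : x ≠ y) :
    ∃ φ, Fn X φ ∧ φ x ≠ 0 ∧ φ y = 0 := by
  obtain ⟨f, hf, h1⟩ := h.sep x y hy
  obtain ⟨g, hg, h2⟩ := h.sep x ∞ hx
  refine ⟨fun z => (f z - f y) * g z, ⟨by rw [hg.base, mul_zero], fun K a ha =>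
    ((hf.cont K a ha).sub continuous_const).mul (hg.cont K a ha)⟩, ?_, by simp⟩
  rw [hg.base] at h2
  exact mul_ne_zero (sub_ne_zero.mpr h1) h2

theorem Tame.t2 {X : PQ} (h : Tame X) : @T2Space _ (top X) := by
  let _ := top X
  refine ⟨fun x y hxy => ?_⟩
  obtain ⟨φ, hφ, hne⟩ := h.sep x y hxy
  exact separated_by_continuous (cont_top hφ.cont) hne

/-- Compact subsets are bounded. -/
theorem Tame.bdd_of_isCompact {X : PQ} (h : Tame X) {s : Set (OnePoint X)}
    (hs : @IsCompact _ (top X) s) : Bdd X s := by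
  let _ := top X
  have := h.t2
  by_contra hb
  obtain ⟨t, hts, hi, ht⟩ := h.fin s hb
  have hcl : ∀ t' ⊆ t, IsClosed t' := fun t' ht' => by
    refine ⟨fun K f hf => ?_⟩
    have h1 : (t' ∩ range f).Finite :=
      (ht _ (bdd_range hf)).subset (inter_subset_inter_left _ ht')
    have h2 : f ⁻¹' t'ᶜ = (f ⁻¹' (t' ∩ range f))ᶜ := by
      ext k
      simp
    rw [h2]
    exact (h1.isClosed.preimage (cont_plot hf)).isOpen_compl
  have hc : IsCompact t := hs.of_isClosed_subset (hcl t Subset.rfl) hts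
  obtain ⟨u, -, hu⟩ := hc.elim_nhds_subcover (fun x => (t \ {x})ᶜ) fun x _ =>
    (hcl _ sdiff_subset).isOpen_compl.mem_nhds (by simp)
  refine hi (u.finite_toSet.subset fun y hy => ?_)
  obtain ⟨x, hx, hy'⟩ := mem_iUnion₂.mp (hu hy)
  have : y = x := by
    by_contra hne
    exact hy' ⟨hy, hne⟩
  rw [this]
  exact hx

/-- Every continuous map from a compact Hausdorff space to a tame object is a plot. -/
theorem Tame.plot {X : PQ} (h : Tame X) {K : CH} {f : K → OnePoint X}
    (hf : Continuous[_, top X] f) : X.plot K f := by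
  let _ := top X
  have := h.t2
  obtain ⟨L, p, hp, hs⟩ := h.bdd_of_isCompact (isCompact_range hf)
  have := FibProd.compactSpace f p hf (cont_plot hp)
  refine X.plot_surj (L := CH.of (FibProd f p)) (FibProd.fst f p) f (FibProd.continuous_fst f p)
    (FibProd.surjective_fst f p fun k => ?_) ?_
  · obtain ⟨l, hl⟩ := hs ⟨k, rfl⟩
    exact ⟨l, hl.symm⟩
  · have : (fun l : FibProd f p => f (FibProd.fst f p l)) = fun l => p (FibProd.snd f p l) :=
      funext (FibProd.condition f p)
    exact this ▸ X.plot_comp (L := CH.of (FibProd f p)) _ p (FibProd.continuous_snd f p) hp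

theorem Tame.plot_iff {X : PQ} (h : Tame X) {K : CH} {f : K → OnePoint X} :
    X.plot K f ↔ Continuous[_, top X] f := ⟨cont_plot, h.plot⟩

/-- Retracts (in particular isomorphic copies) of tame objects are tame. -/
theorem Tame.of_retract {X Y : PQ} (h : Tame Y) (i : X ⟶ Y) (r : Y ⟶ X) (e : i ≫ r = 𝟙 X) :
    Tame X := by
  have he : ∀ x, app r (app i x) = x := fun x => by rw [← app_comp, e, app_id]
  have hi : Function.Injective (app i) := Function.LeftInverse.injective he
  refine ⟨fun x y hxy => ?_, fun s hs => ?_⟩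
  · obtain ⟨φ, hφ, hne⟩ := h.sep _ _ (hi.ne hxy)
    exact ⟨_, hφ.comp i, hne⟩
  · have h1 : ¬ Bdd Y (app i '' s) := fun hb => hs ((hb.image r).mono fun x hx =>
      ⟨_, ⟨x, hx, rfl⟩, he x⟩)
    obtain ⟨t, hts, hti, ht⟩ := h.fin _ h1
    refine ⟨app i ⁻¹' t, fun x hx => ?_, hti.preimage (hts.trans (image_subset_range _ _)),
      fun b hb => ?_⟩
    · obtain ⟨y, hy, hxy⟩ := hts hx
      rwa [← hi hxy]
    · refine ((ht _ (hb.image i)).preimage hi.injOn).subset fun x hx => ⟨hx.1, x, hx.2, rfl⟩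

theorem Tame.of_iso {X Y : PQ} (h : Tame Y) (e : X ≅ Y) : Tame X :=
  h.of_retract e.hom e.inv e.hom_inv_id

theorem bdd_ofLC (X : LC) (s : Set (OnePoint (ofLC X))) : Bdd (ofLC X) s :=
  ⟨CH.of (OnePoint X), id, continuous_id, fun x _ => ⟨x, rfl⟩⟩

theorem fn_ofLC {X : LC} {φ : OnePoint X → ℝ} (h0 : φ ∞ = 0) (h : Continuous φ) :
    Fn (ofLC X) φ := ⟨h0, fun _ _ hf => h.comp hf⟩

theorem tame_ofLC (X : LC) : Tame (ofLC X) := by
  refine ⟨fun x y hxy => ?_, fun s hs => absurd (bdd_ofLC X s) hs⟩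
  obtain ⟨f, h0, h1, -⟩ := exists_continuous_zero_one_of_isClosed (X := OnePoint X)
    (isClosed_singleton (x := x)) (isClosed_singleton (x := y)) (disjoint_singleton.mpr hxy)
  refine ⟨fun z => f z - f ∞, fn_ofLC (sub_self _) (f.continuous.sub continuous_const), ?_⟩
  change f x - f ∞ ≠ f y - f ∞
  rw [h0 (mem_singleton x), h1 (mem_singleton y)]
  intro h
  exact zero_ne_one (α := ℝ) (sub_left_injective h)

/-- The final topology of a space is its topology. -/
theorem top_ofLC (X : LC) : top (ofLC X) = (inferInstance : TopologicalSpace (OnePoint X)) := by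
  ext U
  exact ⟨fun h => h (CH.of (OnePoint X)) id continuous_id, fun h _ _ hf => h.preimage hf⟩

theorem tame_of_isZero {X : PQ} (h : IsZero X) : Tame X :=
  (tame_ofLC (LC.of Empty)).of_retract 0 0 (h.eq_of_src _ _)

end Vale.Agent.P251CT
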