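import Vale.Agent.P251CT.Sum

/-!
# P251C: the base of a cone is a tame inclusion
-/

set_option autoImplicit false

open CategoryTheory MonoidalCategory Limits Topology OnePoint Set

namespace Vale.Agent.P251CT

open Vale.Agent.P251.H Vale.Agent.P251.H.PQ Vale.Agent.P251.G
open Vale.Agent.P251.G.LC (smash smash_coe_coe smash_infty_left smash_infty_right)

variable {A B : PQ}

/-- The inclusion `a ↦ a ∧ b` is a tame inclusion. -/
theorem ti_point (hA : Tame A) (hB : Tame B) (b : B) (i : A ⟶ A ⊗ B)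
    (hi : ∀ a, app i a = smash a (b : OnePoint B)) : TI i := by
  obtain ⟨ψ, r1, r2, -⟩ := hB.sep' (OnePoint.coe_ne_infty b) (OnePoint.coe_ne_infty b)
  refine ⟨fun x y e => ?_, fun φ hφ => ?_, fun p hp q hne => ?_, fun s hs => ?_⟩
  · rw [hi, hi] at e
    induction x using OnePoint.rec with
    | coe x => exact (smash_eq_coe e.symm).1.symm
    | infty =>
      induction y using OnePoint.rec with
      | infty => rfl
      | coe y => exact (smash_eq_coe e).1
  · obtain ⟨χ, h1, h2⟩ := hφ.mul (ψ := fun z => ψ z / ψ b)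
      ⟨by rw [r1.base, zero_div], fun K f hf => (r1.cont K f hf).div_const _⟩
    exact ⟨χ, h1, fun a => by rw [hi, h2, div_self r2, mul_one]⟩
  · induction p using OnePoint.rec with
    | infty => exact absurd ⟨∞, app_infty i⟩ hp
    | coe p =>
      obtain ⟨a, t⟩ := p
      have ht : (t : OnePoint B) ≠ b := fun e =>
        hp ⟨a, by rw [hi, OnePoint.coe_injective e]; rfl⟩
      obtain ⟨ψ₀, s1, s2, s3⟩ := hB.sep' (OnePoint.coe_ne_infty t) ht
      obtain ⟨χ, h1, h2, h3, h4⟩ := tensor_sep hA hB a t q hne s1 s2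
      exact ⟨χ, h1, fun x => by rw [hi, h4 _ _ s3], by rwa [h3]⟩
  · refine ((bdd_singleton A ∞).union (bdd_tensor.mp hs).1).mono fun x hx => ?_
    induction x using OnePoint.rec with
    | infty => exact Or.inl rfl
    | coe x => exact Or.inr ⟨x, b, rfl, by
        have : app i (x : OnePoint A) ∈ s := hx
        rwa [hi] at this⟩

/-- The base of the cone. -/
theorem ti_cone (hA : Tame A) (i : A ⟶ A ⊗ ofLC LC.HH)
    (hi : ∀ a, app i a = smash a ((0 : NNReal) : OnePoint NNReal)) : TI i :=
  ti_point hA (tame_ofLC LC.HH) (0 : NNReal) i hi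

/-- The inclusion of the base point is a tame inclusion. -/
theorem ti_of_isZero {O : PQ} (hO : IsZero O) (hA : Tame A) (i : O ⟶ A) : TI i := by
  have h0 : ∀ x : OnePoint O, x = ∞ := fun x => by
    have := congrArg (fun u : O ⟶ O => app u x) (hO.eq_of_src (𝟙 O) 0)
    exact this
  refine ⟨fun x y _ => (h0 x).trans (h0 y).symm, fun φ hφ => ⟨_, Fn.zero A, fun a => ?_⟩,
    fun b _ b' hne => ?_, fun s _ => (bdd_singleton O ∞).mono fun x _ => h0 x⟩
  · rw [h0 a, hφ.base]
  · obtain ⟨φ, h1, h2⟩ := hA.sep b b' hne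
    exact ⟨φ, h1, fun a => by rw [h0 a, app_infty, h1.base], h2⟩

/-- Quotients by tame inclusions are tame. -/
theorem Tame.cofibre {O Q : PQ} {i : A ⟶ B} {u : A ⟶ O} {q : B ⟶ Q} {v : O ⟶ Q} (hB : Tame B)
    (hi : TI i) (hO : IsZero O) (h : IsPushout i u q v) : Tame Q :=
  (tame_of_isZero hO).pushout hB hi h

/-- Continuous maps of the associated spaces out of an object into a tame object preserve the
plots. -/
def Tame.homOf (hB : Tame B) (f : OnePoint A → OnePoint B) (h0 : f ∞ = ∞)
    (hf : Continuous[top A, top B] f) : A ⟶ B :=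
  ⟨f, h0, fun _ _ ha => hB.plot
    (@Continuous.comp _ _ _ _ (top A) (top B) _ _ hf (cont_plot ha))⟩

end Vale.Agent.P251CT
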