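import Vale.Agent.P251CT.TI

/-!
# P251C: sequential colimits of tame objects
-/

set_option autoImplicit false

open CategoryTheory MonoidalCategory Limits Topology OnePoint Set

namespace Vale.Agent.P251CT

open Vale.Agent.P251.H Vale.Agent.P251.H.PQ Vale.Agent.P251.G

variable {F : ℕ ⥤ PQ} {c : Cocone F}

theorem map_succ {m n : ℕ} (h : m ≤ n) :
    F.map (homOfLE (h.trans (Nat.le_succ n))) =
      F.map (homOfLE h) ≫ F.map (homOfLE (Nat.le_succ n)) := by
  rw [← F.map_comp]
  rfl

theorem app_map_map {l m n : ℕ} (h : l ≤ m) (h' : m ≤ n) (x : OnePoint (F.obj l)) :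
    app (F.map (homOfLE h')) (app (F.map (homOfLE h)) x) =
      app (F.map (homOfLE (h.trans h'))) x := by
  rw [← app_comp, ← F.map_comp]
  rfl

theorem app_map_refl (n : ℕ) (x : OnePoint (F.obj n)) :
    app (F.map (homOfLE (le_refl n))) x = x := by
  have : F.map (homOfLE (le_refl n)) = 𝟙 _ := F.map_id n
  rw [this, app_id]

theorem app_ι_map {m n : ℕ} (h : m ≤ n) (x : OnePoint (F.obj m)) :
    app (c.ι.app n) (app (F.map (homOfLE h)) x) = app (c.ι.app m) x :=
  congrArg (fun u : F.obj m ⟶ c.pt => app u x) (c.w (homOfLE h))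

theorem inj_map (h : ∀ n, Function.Injective (app (F.map (homOfLE (Nat.le_succ n))))) {m n : ℕ}
    (hmn : m ≤ n) : Function.Injective (app (F.map (homOfLE hmn))) := by
  induction n, hmn using Nat.le_induction with
  | base => exact fun x y e => by rwa [app_map_refl, app_map_refl] at e
  | succ n hmn ih =>
    intro x y e
    rw [← app_map_map hmn (Nat.le_succ n), ← app_map_map hmn (Nat.le_succ n)] at e
    exact ih (h n e)

theorem ti_map (h : ∀ n, TI (F.map (homOfLE (Nat.le_succ n)))) {m n : ℕ} (hmn : m ≤ n) :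
    TI (F.map (homOfLE hmn)) := by
  induction n, hmn using Nat.le_induction with
  | base =>
    have : F.map (homOfLE (le_refl m)) = 𝟙 _ := F.map_id m
    rw [this]
    exact ti_iso (Iso.refl _)
  | succ n hmn ih =>
    rw [map_succ hmn]
    exact ih.comp (h n)

/-- The legs of the colimit of a sequence of injective maps are injective. -/
theorem seq_inj (hc : IsColimit c)
    (h : ∀ n, Function.Injective (app (F.map (homOfLE (Nat.le_succ n))))) (n : ℕ) :
    Function.Injective (app (c.ι.app n)) := by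
  classical
  suffices H : ∀ x y : OnePoint (F.obj n), x ≠ ∞ → app (c.ι.app n) x = app (c.ι.app n) y →
      x = y by
    intro x y e
    by_cases hx : x = ∞
    · by_cases hy : y = ∞
      · rw [hx, hy]
      · exact (H y x hy e.symm).symm
    · exact H x y hx e
  intro x y hx e
  let R : ∀ m, OnePoint (F.obj m) → Prop := fun m z =>
    app (F.map (homOfLE (le_max_left m n))) z = app (F.map (homOfLE (le_max_right m n))) x
  have hR : ∀ {l m : ℕ} (hl : l ≤ m) z, R m (app (F.map (homOfLE hl)) z) ↔ R l z := by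
    intro l m hl z
    have h1 : max l n ≤ max m n := max_le_max_right n hl
    refine Iff.trans ?_ (inj_map h h1).eq_iff
    rw [app_map_map, app_map_map]
    change app _ (app _ z) = _ ↔ _
    rw [app_map_map]
  let f : ∀ m, OnePoint (F.obj m) → OnePoint Unit := fun m z =>
    if R m z then ((() : Unit) : OnePoint Unit) else ∞
  have hf : ∀ m, f m ∞ = ∞ := fun m => if_neg fun hh => hx (inj_map h (le_max_right m n)
    (hh.symm.trans ((app_infty _).trans (app_infty _).symm)))
  let s : Cocone F :=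
    { pt := indisc Unit
      ι := { app := fun m => toIndisc (f m) (hf m)
             naturality := fun l m u => hom_ext' fun z => if_congr (hR (leOfHom u) z) rfl rfl } }
  have key : ∀ z, app (hc.desc s) (app (c.ι.app n) z) = f n z := fun z =>
    congrArg (fun u : F.obj n ⟶ indisc Unit => app u z) (hc.fac s n)
  have h1 : f n y = f n x := (key y).symm.trans ((congrArg (app (hc.desc s)) e.symm).trans (key x))
  have h2 : f n x = ((() : Unit) : OnePoint Unit) := if_pos rfl
  by_contra hne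
  have h3 : f n y = ∞ := if_neg fun hh => hne (inj_map h (le_max_left n n) hh).symm
  exact OnePoint.coe_ne_infty _ (h2.symm.trans (h1.symm.trans h3))

theorem seq_surj (hc : IsColimit c) (x : OnePoint c.pt) : ∃ n y, app (c.ι.app n) y = x := by
  rcases isColimit_exists hc x with rfl | h
  · exact ⟨0, ∞, app_infty _⟩
  · exact h

/-- Each plot of the colimit of a sequence of injective maps comes from one stage. -/
theorem seq_plot (hc : IsColimit c)
    (h : ∀ n, Function.Injective (app (F.map (homOfLE (Nat.le_succ n))))) {K : CH}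
    {f : K → OnePoint c.pt} (hf : c.pt.plot K f) :
    ∃ (n : ℕ) (a : K → OnePoint (F.obj n)), (F.obj n).plot K a ∧
      ∀ k, app (c.ι.app n) (a k) = f k := by
  have key := isColimit_plot hc hf
  clear hf
  induction key with
  | base f hf =>
    obtain ⟨j, a, ha, rfl⟩ := hf
    exact ⟨j, a, ha, fun _ => rfl⟩
  | const K x =>
    obtain ⟨n, y, rfl⟩ := seq_surj hc x
    exact ⟨n, fun _ => y, (F.obj n).plot_const K y, fun _ => rfl⟩
  | comp g f hg _ ih =>
    obtain ⟨n, a, ha, e⟩ := ih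
    exact ⟨n, _, (F.obj n).plot_comp g a hg ha, fun l => e (g l)⟩
  | sum f _ _ ih1 ih2 =>
    obtain ⟨n, a, ha, e⟩ := ih1
    obtain ⟨m, b, hb, e'⟩ := ih2
    refine ⟨max n m, Sum.elim (fun k => app (F.map (homOfLE (le_max_left n m))) (a k))
      (fun k => app (F.map (homOfLE (le_max_right n m))) (b k)),
      (F.obj _).plot_sum _ (app_plot _ ha) (app_plot _ hb), ?_⟩
    rintro (k | k)
    · exact (app_ι_map (le_max_left n m) _).trans (e k)
    · exact (app_ι_map (le_max_right n m) _).trans (e' k)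
  | surj g f hg hs _ ih =>
    obtain ⟨n, a, ha, e⟩ := ih
    choose σ hσ using hs
    have h1 : ∀ k, app (c.ι.app n) (a (σ k)) = f k :=
      fun k => (e _).trans (congrArg f (hσ k))
    refine ⟨n, fun k => a (σ k), (F.obj n).plot_surj g _ hg (fun k => ⟨_, hσ k⟩) ?_, h1⟩
    have : (fun l => a (σ (g l))) = a := funext fun l => seq_inj hc h n ((h1 _).trans (e l).symm)
    rwa [this]

theorem seq_bdd (hc : IsColimit c) {s : Set (OnePoint c.pt)} (hs : Bdd c.pt s) :
    ∃ n t, Bdd (F.obj n) t ∧ s ⊆ app (c.ι.app n) '' t := by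
  refine bdd_ind hc (fun s => ∃ n t, Bdd (F.obj n) t ∧ s ⊆ app (c.ι.app n) '' t) ?_ ?_ ?_
    (fun n t ht => ⟨n, t, ht, Subset.rfl⟩) hs
  · rintro s s' h ⟨n, t, ht, h'⟩
    exact ⟨n, t, ht, h.trans h'⟩
  · rintro s s' ⟨n, t, ht, h⟩ ⟨m, t', ht', h'⟩
    refine ⟨max n m, _, (ht.image (F.map (homOfLE (le_max_left n m)))).union
      (ht'.image (F.map (homOfLE (le_max_right n m)))), ?_⟩
    rintro x (hx | hx)
    · obtain ⟨y, hy, rfl⟩ := h hx
      exact ⟨_, Or.inl ⟨y, hy, rfl⟩, app_ι_map _ _⟩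
    · obtain ⟨y, hy, rfl⟩ := h' hx
      exact ⟨_, Or.inr ⟨y, hy, rfl⟩, app_ι_map _ _⟩
  · exact ⟨0, _, bdd_singleton _ ∞, by rintro _ rfl; exact ⟨∞, rfl, app_infty _⟩⟩

theorem seq_ext (hc : IsColimit c) (h : ∀ n, TI (F.map (homOfLE (Nat.le_succ n)))) (j : ℕ)
    {φ : OnePoint (F.obj j) → ℝ} (hφ : Fn _ φ) :
    ∃ ψ, Fn c.pt ψ ∧ ∀ a, ψ (app (c.ι.app j) a) = φ a := by
  choose e he he' using fun n => (h n).ext
  let ψ : ∀ n : ℕ, {f : OnePoint (F.obj (j + n)) → ℝ // Fn _ f} := fun n =>
    Nat.rec (motive := fun n => {f : OnePoint (F.obj (j + n)) → ℝ // Fn _ f}) ⟨φ, hφ⟩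
      (fun n p => ⟨e (j + n) p.1 p.2, he _ _ _⟩) n
  have hψ : ∀ {m n : ℕ} (hmn : m ≤ n) x,
      (ψ n).1 (app (F.map (homOfLE (Nat.add_le_add_left hmn j))) x) = (ψ m).1 x := by
    intro m n hmn x
    induction n, hmn using Nat.le_induction with
    | base => rw [app_map_refl]
    | succ n hmn ih =>
      rw [← ih, ← app_map_map (Nat.add_le_add_left hmn j) (Nat.le_succ (j + n))]
      exact he' (j + n) (ψ n).1 (ψ n).2 _
  obtain ⟨χ, h1, h2⟩ := exists_desc hc
    (fun m x => (ψ m).1 (app (F.map (homOfLE (Nat.le_add_left m j))) x))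
    (fun m => (ψ m).2.comp _) (fun {l m} u x => by
      have hu : u = homOfLE (leOfHom u) := rfl
      rw [hu, app_map_map, ← hψ (leOfHom u), app_map_map])
  refine ⟨χ, h1, fun a => (h2 j a).trans ?_⟩
  exact hψ (Nat.zero_le j) a

/-- The legs of the colimit of a sequence of tame inclusions are tame inclusions. -/
theorem seq_ti (hc : IsColimit c) (h : ∀ n, TI (F.map (homOfLE (Nat.le_succ n)))) (j : ℕ) :
    TI (c.ι.app j) := by
  have hi := seq_inj hc fun n => (h n).inj
  refine ⟨hi j, fun φ hφ => seq_ext hc h j hφ, fun b hb b' hne => ?_, fun s hs => ?_⟩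
  · obtain ⟨n, y, rfl⟩ := seq_surj hc b
    obtain ⟨m, y', rfl⟩ := seq_surj hc b'
    have h1 : j ≤ max j (max n m) := le_max_left _ _
    have h2 : n ≤ max j (max n m) := (le_max_left _ _).trans (le_max_right _ _)
    have h3 : m ≤ max j (max n m) := (le_max_right _ _).trans (le_max_right _ _)
    obtain ⟨ψ, p1, p2, p3⟩ := (ti_map h h1).rel (app (F.map (homOfLE h2)) y) (by
      rintro ⟨a, ha⟩
      exact hb ⟨a, by rw [← app_ι_map h1, ha, app_ι_map]⟩) (app (F.map (homOfLE h3)) y')
      (fun e => hne (by rw [← app_ι_map h2, e, app_ι_map]))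
    obtain ⟨χ, q1, q2⟩ := seq_ext hc h _ p1
    refine ⟨χ, q1, fun a => by rw [← app_ι_map h1, q2, p2], ?_⟩
    rwa [← app_ι_map h2, ← app_ι_map h3, q2, q2]
  · obtain ⟨n, t, ht, hs'⟩ := seq_bdd hc hs
    refine ((ti_map h (le_max_left j n)).bd _
      (ht.image (F.map (homOfLE (le_max_right j n))))).mono fun x hx => ?_
    obtain ⟨y, hy, e⟩ := hs' hx
    exact ⟨y, hy, hi _ (by rw [app_ι_map, app_ι_map, e])⟩

/-- The colimit of a sequence of tame inclusions of tame objects is tame. -/
theorem Tame.seq (hc : IsColimit c) (h : ∀ n, TI (F.map (homOfLE (Nat.le_succ n))))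
    (hF : ∀ n, Tame (F.obj n)) : Tame c.pt := by
  have hi := seq_ti hc h
  refine ⟨(hi 0).sep (hF 0), fun s hs => ?_⟩
  by_cases h1 : ∀ n, Bdd (F.obj n) (app (c.ι.app n) ⁻¹' s)
  · have h2 : ∀ n, ∃ x ∈ s, x ∉ range (app (c.ι.app n)) := fun n => by
      by_contra hn
      push Not at hn
      refine hs (((h1 n).image (c.ι.app n)).mono fun x hx => ?_)
      obtain ⟨y, rfl⟩ := hn x hx
      exact ⟨y, hx, rfl⟩
    choose x hx hx' using h2
    have h3 : ∀ b, Bdd c.pt b → ∃ n, ∀ m, n ≤ m → x m ∉ b := fun b hb => by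
      obtain ⟨n, t, -, hb'⟩ := seq_bdd hc hb
      refine ⟨n, fun m hm hxm => ?_⟩
      obtain ⟨y, -, e⟩ := hb' hxm
      exact hx' m ⟨_, (app_ι_map hm y).trans e⟩
    refine ⟨range x, range_subset_iff.mpr hx, fun hfin => ?_, fun b hb => ?_⟩
    · obtain ⟨n, hn⟩ := h3 _ (bdd_finite hfin)
      exact hn n le_rfl ⟨n, rfl⟩
    · obtain ⟨n, hn⟩ := h3 b hb
      refine ((finite_lt_nat n).image x).subset ?_
      rintro _ ⟨⟨m, rfl⟩, hm⟩
      exact ⟨m, not_le.mp fun hle => hn m hle hm, rfl⟩
  · push Not at h1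
    obtain ⟨n, hn⟩ := h1
    exact fin_push (c.ι.app n) (hF n) hn (fun _ hx => hx) (hi n).inj.injOn
      fun b hb => ((hi n).bd b hb).mono inter_subset_left

end Vale.Agent.P251CT
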