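import Vale.Agent.P251CT.Seq
import Vale.Agent.P251.H.LCone

/-!
# P251C: coproducts and smash products of tame objects
-/

set_option autoImplicit false

open CategoryTheory MonoidalCategory Limits Topology OnePoint Set

namespace Vale.Agent.P251CT

open Vale.Agent.P251.H Vale.Agent.P251.H.PQ Vale.Agent.P251.G
open Vale.Agent.P251.G.LC (smash smash_coe_coe smash_infty_left smash_infty_right)

section sum

variable {ι : Type} {X Y : ι → PQ} {c : Cofan X} {d : Cofan Y}

theorem cofan_ret (hc : IsColimit c) (i : ι) : ∃ r : c.pt ⟶ X i,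
    (∀ x, app r (app (c.inj i) x) = x) ∧ ∀ j, j ≠ i → ∀ x, app r (app (c.inj j) x) = ∞ := by
  classical
  let f : ∀ j, X j ⟶ X i := fun j => if h : j = i then eqToHom (congrArg X h) else 0
  refine ⟨Cofan.IsColimit.desc hc f, fun x => ?_, fun j hj x => ?_⟩
  · rw [← app_comp, Cofan.IsColimit.fac]
    change app (if h : i = i then eqToHom (congrArg X h) else 0) x = x
    rw [dif_pos rfl]
    rfl
  · rw [← app_comp, Cofan.IsColimit.fac]
    change app (if h : j = i then eqToHom (congrArg X h) else 0) x = ∞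
    rw [dif_neg hj]
    rfl

theorem cofan_inj (hc : IsColimit c) (i : ι) : Function.Injective (app (c.inj i)) :=
  Function.LeftInverse.injective (cofan_ret hc i).choose_spec.1

theorem cofan_eq (hc : IsColimit c) {i j : ι} (h : i ≠ j) {x : OnePoint (X i)}
    {y : OnePoint (X j)} (e : app (c.inj i) x = app (c.inj j) y) : x = ∞ := by
  obtain ⟨r, h1, h2⟩ := cofan_ret hc i
  rw [← h1 x, e, h2 j h.symm]

theorem cofan_surj (hc : IsColimit c) (p : OnePoint c.pt) :
    p = ∞ ∨ ∃ i x, x ≠ ∞ ∧ app (c.inj i) x = p := by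
  rcases isColimit_exists hc p with h | ⟨j, y, rfl⟩
  · exact Or.inl h
  · by_cases hy : y = ∞
    · exact Or.inl (by rw [hy, app_infty])
    · exact Or.inr ⟨j.as, y, hy, rfl⟩

theorem cofan_desc (hc : IsColimit c) (φ : ∀ i, OnePoint (X i) → ℝ) (h : ∀ i, Fn _ (φ i)) :
    ∃ χ, Fn c.pt χ ∧ ∀ i x, χ (app (c.inj i) x) = φ i x :=
  ⟨_, fn_val.comp (Cofan.IsColimit.desc hc fun i => (h i).hom), fun i x => by
    rw [← app_comp, Cofan.IsColimit.fac, Fn.val_hom]⟩

theorem cofan_bd (hc : IsColimit c) (i : ι) {s : Set (OnePoint c.pt)} (hs : Bdd c.pt s) :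
    Bdd (X i) (app (c.inj i) ⁻¹' s) := by
  obtain ⟨r, h1, -⟩ := cofan_ret hc i
  exact (hs.image r).mono fun x hx => ⟨_, hx, h1 x⟩

theorem cofan_fin (hc : IsColimit c) {s : Set (OnePoint c.pt)} (hs : Bdd c.pt s) :
    {i | ∃ x, x ≠ ∞ ∧ app (c.inj i) x ∈ s}.Finite := by
  refine bdd_ind hc (fun s => {i | ∃ x, x ≠ ∞ ∧ app (c.inj i) x ∈ s}.Finite) ?_ ?_ ?_ ?_ hs
  · exact fun s t h ht => ht.subset fun i ⟨x, h1, h2⟩ => ⟨x, h1, h h2⟩
  · exact fun s t h1 h2 => (h1.union h2).subset fun i ⟨x, p, q⟩ =>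
      q.imp (fun q => ⟨x, p, q⟩) fun q => ⟨x, p, q⟩
  · exact finite_empty.subset fun i ⟨x, p, q⟩ =>
      p (cofan_inj hc i (q.trans (app_infty _).symm))
  · rintro ⟨j⟩ t -
    refine (finite_singleton j).subset ?_
    rintro i ⟨x, p, y, -, e⟩
    by_contra hne
    exact p (cofan_eq hc hne e.symm)

theorem cofan_bdd (hc : IsColimit c) {s : Set (OnePoint c.pt)}
    (h1 : {i | ∃ x, x ≠ ∞ ∧ app (c.inj i) x ∈ s}.Finite)
    (h2 : ∀ i, Bdd (X i) (app (c.inj i) ⁻¹' s)) : Bdd c.pt s := by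
  refine ((bdd_singleton _ ∞).union
    (bdd_biUnion h1 fun i _ => (h2 i).image (c.inj i))).mono fun p hp => ?_
  rcases cofan_surj hc p with h | ⟨i, x, hx, rfl⟩
  · exact Or.inl h
  · exact Or.inr (mem_biUnion (x := i) ⟨x, hx, hp⟩ ⟨x, hp, rfl⟩)

/-- Coproducts of tame objects are tame. -/
theorem Tame.cofan (hc : IsColimit c) (h : ∀ i, Tame (X i)) : Tame c.pt := by
  constructor
  · suffices H : ∀ i (x : OnePoint (X i)) q, x ≠ ∞ → app (c.inj i) x ≠ q →
        ∃ φ, Fn c.pt φ ∧ φ (app (c.inj i) x) ≠ φ q by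
      intro p q hpq
      rcases cofan_surj hc p with rfl | ⟨i, x, hx, rfl⟩
      · rcases cofan_surj hc q with rfl | ⟨i, x, hx, rfl⟩
        · exact absurd rfl hpq
        · obtain ⟨φ, h1, h2⟩ := H i x ∞ hx hpq.symm
          exact ⟨φ, h1, h2.symm⟩
      · exact H i x q hx hpq
    intro i x q hx hq
    obtain ⟨r, h1, h2⟩ := cofan_ret hc i
    have hne : x ≠ app r q := by
      rcases cofan_surj hc q with rfl | ⟨j, y, -, rfl⟩
      · rwa [app_infty]
      · by_cases hj : j = i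
        · subst hj
          rw [h1]
          exact fun e => hq (congrArg _ e)
        · rwa [h2 j hj]
    obtain ⟨φ, p1, p2⟩ := (h i).sep x _ hne
    exact ⟨_, p1.comp r, by rwa [h1]⟩
  · intro s hs
    by_cases h1 : ∀ i, Bdd (X i) (app (c.inj i) ⁻¹' s)
    · have h2 : {i | ∃ x, x ≠ ∞ ∧ app (c.inj i) x ∈ s}.Infinite :=
        fun hf => hs (cofan_bdd hc hf h1)
      have := h2.to_subtype
      choose x hx hx' using fun i : {i | ∃ x, x ≠ ∞ ∧ app (c.inj i) x ∈ s} => i.2
      refine ⟨range fun i => app (c.inj i.1) (x i), range_subset_iff.mpr hx',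
        infinite_range_of_injective fun i j e => ?_, fun b hb => ?_⟩
      · by_contra hne
        exact hx i (cofan_eq hc (fun e => hne (Subtype.ext e)) e)
      · refine (((cofan_fin hc hb).preimage Subtype.val_injective.injOn).image
          fun i => app (c.inj i.1) (x i)).subset ?_
        rintro _ ⟨⟨i, rfl⟩, hi⟩
        exact ⟨i, ⟨x i, hx i, hi⟩, rfl⟩
    · push Not at h1
      obtain ⟨i, hi⟩ := h1
      exact fin_push (c.inj i) (h i) hi (fun _ hx => hx) (cofan_inj hc i).injOn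
        fun b hb => (cofan_bd hc i hb).mono inter_subset_left

/-- Coproducts of tame inclusions are tame inclusions. -/
theorem ti_cofan (hc : IsColimit c) (hd : IsColimit d) {f : ∀ i, X i ⟶ Y i} (hf : ∀ i, TI (f i))
    {u : c.pt ⟶ d.pt} (w : ∀ i, c.inj i ≫ u = f i ≫ d.inj i) : TI u := by
  classical
  have w' : ∀ i x, app u (app (c.inj i) x) = app (d.inj i) (app (f i) x) := fun i x => by
    rw [← app_comp, w, app_comp]
  have hn : ∀ i x, x ≠ ∞ → app (f i) x ≠ ∞ := fun i x hx e =>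
    hx ((hf i).inj (e.trans (app_infty _).symm))
  refine ⟨fun p q e => ?_, fun φ hφ => ?_, fun b hb b' hne => ?_, fun s hs => ?_⟩
  · rcases cofan_surj hc p with rfl | ⟨i, x, hx, rfl⟩ <;>
      rcases cofan_surj hc q with rfl | ⟨j, y, hy, rfl⟩
    · rfl
    · rw [app_infty, w'] at e
      exact absurd (cofan_inj hd j (e.symm.trans (app_infty _).symm)) (hn j y hy)
    · rw [app_infty, w'] at e
      exact absurd (cofan_inj hd i (e.trans (app_infty _).symm)) (hn i x hx)
    · rw [w', w'] at e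
      by_cases hij : i = j
      · subst hij
        rw [(hf i).inj (cofan_inj hd i e)]
      · exact absurd (cofan_eq hd hij e) (hn i x hx)
  · choose ψ h1 h2 using fun i => (hf i).ext _ (hφ.comp (c.inj i))
    obtain ⟨χ, h3, h4⟩ := cofan_desc hd ψ h1
    refine ⟨χ, h3, fun a => ?_⟩
    rcases cofan_surj hc a with rfl | ⟨i, x, -, rfl⟩
    · rw [app_infty, h3.base, hφ.base]
    · rw [w', h4, h2]
  · rcases cofan_surj hd b with rfl | ⟨i, y, hy, rfl⟩
    · exact absurd ⟨∞, app_infty _⟩ hb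
    · obtain ⟨r, h1, h2⟩ := cofan_ret hd i
      have hy' : y ≠ app r b' := by
        rcases cofan_surj hd b' with rfl | ⟨j, z, -, rfl⟩
        · rwa [app_infty]
        · by_cases hj : j = i
          · subst hj
            rw [h1]
            exact fun e => hne (congrArg _ e)
          · rwa [h2 j hj]
      obtain ⟨ψ, p1, p2, p3⟩ := (hf i).rel y (by
        rintro ⟨x, rfl⟩
        exact hb ⟨_, w' i x⟩) _ hy'
      refine ⟨_, p1.comp r, fun a => ?_, by rwa [h1]⟩
      rcases cofan_surj hc a with rfl | ⟨j, x, -, rfl⟩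
      · rw [app_infty, app_infty, p1.base]
      · rw [w']
        by_cases hj : j = i
        · subst hj
          rw [h1, p2]
        · rw [h2 j hj, p1.base]
  · refine cofan_bdd hc ((cofan_fin hd hs).subset ?_) fun i => ?_
    · rintro i ⟨x, hx, hx'⟩
      exact ⟨_, hn i x hx, by rw [← w']; exact hx'⟩
    · refine ((hf i).bd _ (cofan_bd hd i hs)).mono fun x hx => ?_
      change app (d.inj i) (app (f i) x) ∈ s
      rw [← w']
      exact hx

theorem Tame.sigma (h : ∀ i, Tame (X i)) : Tame (∐ X) :=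
  Tame.cofan (coproductIsCoproduct X) h

theorem ti_sigma_map {f : ∀ i, X i ⟶ Y i} (hf : ∀ i, TI (f i)) : TI (Limits.Sigma.map f) :=
  ti_cofan (coproductIsCoproduct X) (coproductIsCoproduct Y) hf fun i => Sigma.ι_map f i

end sum

section tensor

variable {A B C : PQ}

theorem Fn.mul {φ : OnePoint A → ℝ} {ψ : OnePoint B → ℝ} (hφ : Fn A φ) (hψ : Fn B ψ) :
    ∃ χ, Fn (A ⊗ B) χ ∧ ∀ a b, χ (smash a b) = φ a * ψ b := by
  let χ : OnePoint (A × B) → ℝ := fun p => p.elim 0 fun q => φ q.1 * ψ q.2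
  have h : ∀ a b, χ (smash a b) = φ a * ψ b := by
    intro a b
    induction a using OnePoint.rec with
    | infty => rw [hφ.base, zero_mul]; rfl
    | coe a =>
      induction b using OnePoint.rec with
      | infty => rw [hψ.base, mul_zero]; rfl
      | coe b => rfl
  refine ⟨χ, ⟨rfl, fun K f hf => ?_⟩, h⟩
  have h0 : ∀ r : ℝ, val ((Pt.equiv ℝ 0).symm r) = r := (Pt.equiv ℝ 0).apply_symm_apply
  have := gen_plot_map (Y := RQ) (G := TensorGen A B) (fun p => (Pt.equiv ℝ 0).symm (χ p)) (by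
    rintro K _ ⟨a, b, ha, hb, rfl⟩
    change Continuous fun k => val ((Pt.equiv ℝ 0).symm (χ (smash (a k) (b k))))
    simp only [h0, h]
    exact (hφ.cont K a ha).mul (hψ.cont K b hb)) hf
  change Continuous fun k => val ((Pt.equiv ℝ 0).symm (χ (f k))) at this
  simpa only [h0] using this

/-- first coordinates -/
def pr1 (s : Set (OnePoint (A ⊗ B : PQ))) : Set (OnePoint A) :=
  {x | ∃ (a : A) (b : B), x = a ∧ (((a, b) : A × B) : OnePoint (A × B)) ∈ s}

/-- second coordinates -/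
def pr2 (s : Set (OnePoint (A ⊗ B : PQ))) : Set (OnePoint B) :=
  {y | ∃ (a : A) (b : B), y = b ∧ (((a, b) : A × B) : OnePoint (A × B)) ∈ s}

theorem smash_eq_coe {S T : Type} {x : OnePoint S} {y : OnePoint T} {a : S} {b : T}
    (h : smash x y = (((a, b) : S × T) : OnePoint (S × T))) : x = a ∧ y = b := by
  induction x using OnePoint.rec with
  | infty => exact absurd h.symm (OnePoint.coe_ne_infty _)
  | coe x =>
    induction y using OnePoint.rec with
    | infty => exact absurd h.symm (OnePoint.coe_ne_infty _)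
    | coe y =>
      have := OnePoint.coe_injective (show (((x, y) : S × T) : OnePoint (S × T)) = _ from h)
      rw [Prod.mk.injEq] at this
      rw [this.1, this.2]
      exact ⟨rfl, rfl⟩

theorem bdd_tensor {s : Set (OnePoint (A ⊗ B : PQ))} :
    Bdd (A ⊗ B) s ↔ Bdd A (pr1 s) ∧ Bdd B (pr2 s) := by
  constructor
  · rintro ⟨K, f, hf, hs⟩
    have m1 : ∀ s t : Set (OnePoint (A ⊗ B : PQ)), s ⊆ t → pr1 s ⊆ pr1 t :=
      fun s t h x ⟨a, b, e, p⟩ => ⟨a, b, e, h p⟩
    have m2 : ∀ s t : Set (OnePoint (A ⊗ B : PQ)), s ⊆ t → pr2 s ⊆ pr2 t :=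
      fun s t h x ⟨a, b, e, p⟩ => ⟨a, b, e, h p⟩
    have key := gen_ind (G := TensorGen A B)
      (fun s : Set (OnePoint (A ⊗ B : PQ)) => Bdd A (pr1 s) ∧ Bdd B (pr2 s))
      (fun s t h ht => ⟨ht.1.mono (m1 _ _ h), ht.2.mono (m2 _ _ h)⟩)
      (fun s t h1 h2 => ⟨(h1.1.union h2.1).mono fun x ⟨a, b, e, p⟩ =>
          p.imp (fun p => ⟨a, b, e, p⟩) fun p => ⟨a, b, e, p⟩,
        (h1.2.union h2.2).mono fun x ⟨a, b, e, p⟩ =>
          p.imp (fun p => ⟨a, b, e, p⟩) fun p => ⟨a, b, e, p⟩⟩) (fun p => ?_) ?_ hf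
    · exact ⟨key.1.mono (m1 _ _ hs), key.2.mono (m2 _ _ hs)⟩
    · induction p using OnePoint.rec with
      | infty =>
        exact ⟨(bdd_empty A).mono fun x ⟨a, b, _, p⟩ => OnePoint.coe_ne_infty _ p,
          (bdd_empty B).mono fun x ⟨a, b, _, p⟩ => OnePoint.coe_ne_infty _ p⟩
      | coe q =>
        exact ⟨(bdd_singleton A q.1).mono fun x ⟨a, b, e, p⟩ =>
            e.trans (congrArg (fun z : A × B => (z.1 : OnePoint A)) (OnePoint.coe_injective p)),
          (bdd_singleton B q.2).mono fun x ⟨a, b, e, p⟩ =>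
            e.trans (congrArg (fun z : A × B => (z.2 : OnePoint B)) (OnePoint.coe_injective p))⟩
    · rintro K _ ⟨a, b, ha, hb, rfl⟩
      exact ⟨(bdd_range ha).mono fun x ⟨_, _, e, k, p⟩ => ⟨k, (smash_eq_coe p).1.trans e.symm⟩,
        (bdd_range hb).mono fun x ⟨_, _, e, k, p⟩ => ⟨k, (smash_eq_coe p).2.trans e.symm⟩⟩
  · rintro ⟨⟨K, f, hf, h1⟩, ⟨L, g, hg, h2⟩⟩
    refine ((bdd_singleton (A ⊗ B) ∞).union (bdd_range (K := CH.prod K L) (tensor_plot A B
      (A.plot_comp (L := CH.prod K L) Prod.fst f continuous_fst hf)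
      (B.plot_comp (L := CH.prod K L) Prod.snd g continuous_snd hg)))).mono fun p hp => ?_
    induction p using OnePoint.rec with
    | infty => exact Or.inl rfl
    | coe q =>
      obtain ⟨k, hk⟩ := h1 ⟨q.1, q.2, rfl, hp⟩
      obtain ⟨l, hl⟩ := h2 ⟨q.1, q.2, rfl, hp⟩
      refine Or.inr ⟨(k, l), ?_⟩
      change smash (f k) (g l) = _
      rw [hk, hl]
      rfl

theorem tensor_sep (hA : Tame A) (hB : Tame B) (a : A) (b : B) (q : OnePoint (A ⊗ B : PQ))
    (h : (((a, b) : A × B) : OnePoint (A × B)) ≠ q) {ψ₀ : OnePoint B → ℝ} (h0 : Fn B ψ₀)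
    (hb : ψ₀ b ≠ 0) : ∃ χ, Fn (A ⊗ B) χ ∧ χ (((a, b) : A × B) : OnePoint (A × B)) ≠ 0 ∧
      χ q = 0 ∧ ∀ x y, ψ₀ y = 0 → χ (smash x y) = 0 := by
  have key : ∀ (x : OnePoint A) (y : OnePoint B), (a : OnePoint A) ≠ x ∨ (b : OnePoint B) ≠ y →
      ∃ χ, Fn (A ⊗ B) χ ∧ χ (((a, b) : A × B) : OnePoint (A × B)) ≠ 0 ∧
        χ (smash x y) = 0 ∧ ∀ x y, ψ₀ y = 0 → χ (smash x y) = 0 := by
    rintro x y (hx | hy)
    · obtain ⟨φ, p1, p2, p3⟩ := hA.sep' (OnePoint.coe_ne_infty a) hx
      obtain ⟨χ, q1, q2⟩ := p1.mul h0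
      exact ⟨χ, q1, (q2 a b).trans_ne (mul_ne_zero p2 hb), by rw [q2, p3, zero_mul],
        fun x y e => by rw [q2, e, mul_zero]⟩
    · obtain ⟨φ, p1, p2, -⟩ := hA.sep' (OnePoint.coe_ne_infty a) (OnePoint.coe_ne_infty a)
      obtain ⟨ψ, r1, r2, r3⟩ := hB.sep' (OnePoint.coe_ne_infty b) hy
      obtain ⟨χ, q1, q2⟩ := p1.mul (ψ := fun z => ψ z * ψ₀ z)
        ⟨by rw [r1.base, zero_mul], fun K f hf => (r1.cont K f hf).mul (h0.cont K f hf)⟩
      exact ⟨χ, q1, (q2 a b).trans_ne (mul_ne_zero p2 (mul_ne_zero r2 hb)),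
        by rw [q2, r3, zero_mul, mul_zero], fun x y e => by rw [q2, e, mul_zero, mul_zero]⟩
  induction q using OnePoint.rec with
  | infty => exact key ∞ ∞ (Or.inl (OnePoint.coe_ne_infty a))
  | coe q =>
    refine key q.1 q.2 ?_
    by_contra hn
    push Not at hn
    exact h (congrArg _ (Prod.ext (OnePoint.coe_injective hn.1) (OnePoint.coe_injective hn.2)))

/-- Smash products of tame objects are tame. -/
theorem Tame.tensor (hA : Tame A) (hB : Tame B) : Tame (A ⊗ B) := by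
  constructor
  · suffices H : ∀ (p : A × B) (q : OnePoint (A ⊗ B : PQ)), (p : OnePoint (A × B)) ≠ q →
        ∃ φ, Fn (A ⊗ B) φ ∧ φ (p : OnePoint (A × B)) ≠ φ q by
      intro p q hpq
      induction p using OnePoint.rec with
      | coe p => exact H p q hpq
      | infty =>
        induction q using OnePoint.rec with
        | infty => exact absurd rfl hpq
        | coe q =>
          obtain ⟨φ, h1, h2⟩ := H q ∞ hpq.symm
          exact ⟨φ, h1, h2.symm⟩
    rintro ⟨a, b⟩ q hq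
    obtain ⟨ψ, r1, r2, -⟩ := hB.sep' (OnePoint.coe_ne_infty b) (OnePoint.coe_ne_infty b)
    obtain ⟨χ, h1, h2, h3, -⟩ := tensor_sep hA hB a b q hq r1 r2
    exact ⟨χ, h1, by rwa [h3]⟩
  · intro s hs
    rw [bdd_tensor, not_and_or] at hs
    rcases hs with hs | hs
    · obtain ⟨t, h1, h2, h3⟩ := hA.fin _ hs
      have := h2.to_subtype
      choose a b e hp using fun x : t => h1 x.2
      refine ⟨range fun x => (((a x, b x) : A × B) : OnePoint (A × B)), range_subset_iff.mpr hp,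
        infinite_range_of_injective fun x y h => Subtype.ext ?_, fun u hu => ?_⟩
      · rw [e, e, (Prod.mk.inj (OnePoint.coe_injective h)).1]
      · refine (((h3 _ (bdd_tensor.mp hu).1).preimage Subtype.val_injective.injOn).image
          fun x => (((a x, b x) : A × B) : OnePoint (A × B))).subset ?_
        rintro _ ⟨⟨x, rfl⟩, hx⟩
        exact ⟨x, ⟨x.2, a x, b x, e x, hx⟩, rfl⟩
    · obtain ⟨t, h1, h2, h3⟩ := hB.fin _ hs
      have := h2.to_subtype
      choose a b e hp using fun x : t => h1 x.2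
      refine ⟨range fun x => (((a x, b x) : A × B) : OnePoint (A × B)), range_subset_iff.mpr hp,
        infinite_range_of_injective fun x y h => Subtype.ext ?_, fun u hu => ?_⟩
      · rw [e, e, (Prod.mk.inj (OnePoint.coe_injective h)).2]
      · refine (((h3 _ (bdd_tensor.mp hu).2).preimage Subtype.val_injective.injOn).image
          fun x => (((a x, b x) : A × B) : OnePoint (A × B))).subset ?_
        rintro _ ⟨⟨x, rfl⟩, hx⟩
        exact ⟨x, ⟨x.2, a x, b x, e x, hx⟩, rfl⟩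

end tensor

end Vale.Agent.P251CT
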