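import Vale.Agent.P251CT.Basic
import Mathlib.Topology.TietzeExtension

/-!
# P251C: tame inclusions, pushouts and sequences
-/

set_option autoImplicit false

open CategoryTheory MonoidalCategory Limits Topology OnePoint Set

namespace Vale.Agent.P251CT

open Vale.Agent.P251.H Vale.Agent.P251.H.PQ Vale.Agent.P251.G

/-- Tame inclusions. -/
structure TI {A B : PQ} (i : A ⟶ B) : Prop where
  inj : Function.Injective (app i)
  ext : ∀ φ, Fn A φ → ∃ ψ, Fn B ψ ∧ ∀ a, ψ (app i a) = φ a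
  rel : ∀ b ∉ range (app i), ∀ b', b ≠ b' → ∃ ψ, Fn B ψ ∧ (∀ a, ψ (app i a) = 0) ∧ ψ b ≠ ψ b'
  bd : ∀ s, Bdd B s → Bdd A (app i ⁻¹' s)

theorem app_hom_inv {A B : PQ} (e : A ≅ B) (x : OnePoint A) : app e.inv (app e.hom x) = x := by
  rw [← app_comp, e.hom_inv_id, app_id]

theorem app_inv_hom {A B : PQ} (e : A ≅ B) (x : OnePoint B) : app e.hom (app e.inv x) = x := by
  rw [← app_comp, e.inv_hom_id, app_id]

theorem ti_iso {A B : PQ} (e : A ≅ B) : TI e.hom where
  inj := Function.LeftInverse.injective (app_hom_inv e)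
  ext φ h := ⟨_, h.comp e.inv, fun a => by rw [app_hom_inv]⟩
  rel b hb := absurd ⟨_, app_inv_hom e b⟩ hb
  bd s hs := (hs.image e.inv).mono fun x hx => ⟨_, hx, app_hom_inv e x⟩

theorem ti_of_isIso {A B : PQ} (i : A ⟶ B) [IsIso i] : TI i := ti_iso (asIso i)

theorem TI.rel' {A B : PQ} {i : A ⟶ B} (h : TI i) {b : OnePoint B} (hb : b ∉ range (app i)) :
    ∃ ψ, Fn B ψ ∧ (∀ a, ψ (app i a) = 0) ∧ ψ b ≠ 0 := by
  obtain ⟨ψ, h1, h2, h3⟩ := h.rel b hb ∞ (by rintro rfl; exact hb ⟨∞, app_infty i⟩)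
  exact ⟨ψ, h1, h2, by rwa [h1.base] at h3⟩

theorem TI.comp {A B C : PQ} {i : A ⟶ B} {j : B ⟶ C} (hi : TI i) (hj : TI j) : TI (i ≫ j) where
  inj := hj.inj.comp hi.inj
  ext φ h := by
    obtain ⟨ψ, h1, h2⟩ := hi.ext φ h
    obtain ⟨χ, h3, h4⟩ := hj.ext ψ h1
    exact ⟨χ, h3, fun a => (h4 _).trans (h2 a)⟩
  rel c hc c' hne := by
    by_cases h : c ∈ range (app j)
    · obtain ⟨b, rfl⟩ := h
      have hb : b ∉ range (app i) := by
        rintro ⟨a, rfl⟩
        exact hc ⟨a, rfl⟩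
      by_cases h' : c' ∈ range (app j)
      · obtain ⟨b', rfl⟩ := h'
        obtain ⟨ψ, h1, h2, h3⟩ := hi.rel b hb b' (fun e => hne (congrArg _ e))
        obtain ⟨χ, h4, h5⟩ := hj.ext ψ h1
        exact ⟨χ, h4, fun a => (h5 _).trans (h2 a), by rwa [h5, h5]⟩
      · obtain ⟨χ, h1, h2, h3⟩ := hj.rel' h'
        exact ⟨χ, h1, fun a => h2 _, by rw [h2]; exact h3.symm⟩
    · obtain ⟨χ, h1, h2, h3⟩ := hj.rel c h c' hne
      exact ⟨χ, h1, fun a => h2 _, h3⟩
  bd s hs := hi.bd _ (hj.bd s hs)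

theorem TI.congr_iso {A B A' B' : PQ} {i : A ⟶ B} {i' : A' ⟶ B'} (h : TI i) (a : A ≅ A')
    (b : B ≅ B') (w : i ≫ b.hom = a.hom ≫ i') : TI i' := by
  have : i' = a.inv ≫ i ≫ b.hom := by rw [w, Iso.inv_hom_id_assoc]
  rw [this]
  exact (ti_iso a.symm).comp (h.comp (ti_iso b))

/-- Points are separated in the target of a tame inclusion with tame source. -/
theorem TI.sep {A B : PQ} {i : A ⟶ B} (h : TI i) (hA : Tame A) (x y : OnePoint B) (hxy : x ≠ y) :
    ∃ φ, Fn B φ ∧ φ x ≠ φ y := by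
  by_cases hx : x ∈ range (app i)
  · by_cases hy : y ∈ range (app i)
    · obtain ⟨a, rfl⟩ := hx
      obtain ⟨a', rfl⟩ := hy
      obtain ⟨φ, h1, h2⟩ := hA.sep a a' (fun e => hxy (congrArg _ e))
      obtain ⟨ψ, h3, h4⟩ := h.ext φ h1
      exact ⟨ψ, h3, by rwa [h4, h4]⟩
    · obtain ⟨ψ, h1, -, h3⟩ := h.rel y hy x hxy.symm
      exact ⟨ψ, h1, h3.symm⟩
  · obtain ⟨ψ, h1, -, h3⟩ := h.rel x hx y hxy
    exact ⟨ψ, h1, h3⟩

/-- Transfer of a locally finite infinite set. -/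
theorem fin_push {A B : PQ} (u : A ⟶ B) (hA : Tame A) {s : Set (OnePoint B)}
    {s' : Set (OnePoint A)} (hs : ¬ Bdd A s') (hm : MapsTo (app u) s' s) (hi : InjOn (app u) s')
    (hb : ∀ b, Bdd B b → Bdd A (app u ⁻¹' b ∩ s')) :
    ∃ t ⊆ s, t.Infinite ∧ ∀ b, Bdd B b → (t ∩ b).Finite := by
  obtain ⟨t, h1, h2, h3⟩ := hA.fin _ hs
  refine ⟨app u '' t, ?_, h2.image (hi.mono h1), fun b h => ?_⟩
  · rintro _ ⟨x, hx, rfl⟩
    exact hm (h1 hx)
  · refine ((h3 _ (hb b h)).image (app u)).subset ?_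
    rintro _ ⟨⟨x, hx, rfl⟩, hx'⟩
    exact ⟨x, ⟨hx, hx', h1 hx⟩, rfl⟩

/-- Injective maps of spaces are tame inclusions. -/
theorem ti_ofLC {A B : LC} (i : ofLC A ⟶ ofLC B) (hi : Function.Injective (app i)) : TI i := by
  have hc : Continuous (app i : OnePoint A → OnePoint B) := continuous_app_ofLC i
  have he : IsClosedEmbedding (app i : OnePoint A → OnePoint B) := hc.isClosedEmbedding hi
  refine ⟨hi, fun φ h => ?_, fun b hb b' hne => ?_, fun s _ => bdd_ofLC _ _⟩
  · have hφ : Continuous (φ : OnePoint A → ℝ) :=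
      h.cont (CH.of (OnePoint A)) id continuous_id
    obtain ⟨g, hg⟩ := ContinuousMap.exists_extension he (⟨φ, hφ⟩ : C(OnePoint A, ℝ))
    have hg' : ∀ a, g (app i a) = φ a := fun a => DFunLike.congr_fun hg a
    exact ⟨g, fn_ofLC (by rw [← app_infty i, hg', h.base]) g.continuous, hg'⟩
  · obtain ⟨f, h0, h1, -⟩ := exists_continuous_zero_one_of_isClosed (X := OnePoint B)
      (he.isClosed_range.union (isClosed_singleton (x := b'))) (isClosed_singleton (x := b))
      (disjoint_singleton_right.mpr (by rintro (h | h); exacts [hb h, hne h]))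
    refine ⟨f, fn_ofLC (h0 (Or.inl ⟨∞, app_infty i⟩)) f.continuous,
      fun a => h0 (Or.inl ⟨a, rfl⟩), ?_⟩
    rw [h0 (Or.inr rfl), h1 (mem_singleton b)]
    exact one_ne_zero

theorem ti_LCPQ {A B : LC} (i : A ⟶ B) (hi : Function.Injective (LC.app i)) :
    TI (LCPQ.map i) := ti_ofLC _ hi

section push

variable {A B X P : PQ} {i : A ⟶ B} {u : A ⟶ X} {g : B ⟶ P} {k : X ⟶ P}

theorem push_w (h : IsPushout i u g k) (a : OnePoint A) : app g (app i a) = app k (app u a) := by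
  rw [← app_comp, h.w, app_comp]

theorem push_desc (h : IsPushout i u g k) {ψ : OnePoint B → ℝ} {φ : OnePoint X → ℝ}
    (hψ : Fn B ψ) (hφ : Fn X φ) (w : ∀ a, ψ (app i a) = φ (app u a)) :
    ∃ χ, Fn P χ ∧ (∀ b, χ (app g b) = ψ b) ∧ ∀ x, χ (app k x) = φ x := by
  have w' : i ≫ hψ.hom = u ≫ hφ.hom := hom_ext_val fun a => by
    rw [app_comp, app_comp, Fn.val_hom, Fn.val_hom, w]
  refine ⟨_, fn_val.comp (h.desc _ _ w'), fun b => ?_, fun x => ?_⟩
  · rw [← app_comp, h.inl_desc, Fn.val_hom]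
  · rw [← app_comp, h.inr_desc, Fn.val_hom]

theorem push_ind (h : IsPushout i u g k) (I : Set (OnePoint P) → Prop)
    (mono : ∀ s t, s ⊆ t → I t → I s) (un : ∀ s t, I s → I t → I (s ∪ t))
    (h1 : ∀ s, Bdd B s → I (app g '' s)) (h2 : ∀ s, Bdd X s → I (app k '' s))
    {s : Set (OnePoint P)} (hs : Bdd P s) : I s := by
  refine bdd_ind h.isColimit I mono un ?_ ?_ hs
  · have := h2 _ (bdd_singleton X ∞)
    rwa [image_singleton, app_infty] at this
  · rintro (_ | _ | _) s hs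
    · refine mono _ _ ?_ (h1 _ (hs.image i))
      rintro _ ⟨a, ha, rfl⟩
      exact ⟨_, ⟨a, ha, rfl⟩, rfl⟩
    · exact h1 s hs
    · exact h2 s hs

theorem push_surj (h : IsPushout i u g k) (p : OnePoint P) :
    p ∈ range (app k) ∨ ∃ b ∉ range (app i), app g b = p := by
  have key : p ∈ range (app g) ∪ range (app k) :=
    push_ind h (fun s => s ⊆ range (app g) ∪ range (app k)) (fun _ _ h1 h2 => h1.trans h2)
      (fun _ _ => union_subset) (fun _ _ => (image_subset_range _ _).trans subset_union_left)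
      (fun _ _ => (image_subset_range _ _).trans subset_union_right) (bdd_singleton P p) rfl
  rcases key with ⟨b, rfl⟩ | hk
  · by_cases hb : b ∈ range (app i)
    · obtain ⟨a, rfl⟩ := hb
      exact Or.inl ⟨_, (push_w h a).symm⟩
    · exact Or.inr ⟨b, hb, rfl⟩
  · exact Or.inl hk

/-- the pointed set with all functions as plots -/
def indisc (T : Type) : PQ where
  carrier := T
  plot _ _ := True
  plot_const _ _ := trivial
  plot_comp _ _ _ _ := trivial
  plot_sum _ _ _ := trivial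
  plot_surj _ _ _ _ _ := trivial

/-- a pointed function as a morphism -/
def toIndisc {Y : PQ} {T : Type} (f : OnePoint Y → OnePoint T) (h : f ∞ = ∞) : Y ⟶ indisc T :=
  ⟨f, h, fun _ _ _ => trivial⟩

/-- A cobase change of an injective map is injective. -/
theorem push_inj (h : IsPushout i u g k) (hi : Function.Injective (app i)) :
    Function.Injective (app k) := by
  classical
  let f : OnePoint B → OnePoint X := fun b =>
    if hb : b ∈ range (app i) then app u hb.choose else ∞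
  have hf : ∀ a, f (app i a) = app u a := fun a => by
    have hb : app i a ∈ range (app i) := ⟨a, rfl⟩
    change (if hb : app i a ∈ range (app i) then app u hb.choose else ∞) = _
    rw [dif_pos hb, hi hb.choose_spec]
  have h0 : f ∞ = ∞ := by rw [← app_infty i, hf, app_infty]
  have w : i ≫ toIndisc f h0 = u ≫ toIndisc (Y := X) id rfl := hom_ext' hf
  intro x y e
  have key : ∀ z : OnePoint X, app (h.desc _ _ w) (app k z) = z := fun z =>
    congrArg (fun m : X ⟶ indisc X => app m z) (h.inr_desc _ _ w)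
  exact (key x).symm.trans ((congrArg (app (h.desc _ _ w)) e).trans (key y))

theorem push_eq (h : IsPushout i u g k) (hi : TI i) {b b' : OnePoint B} (hb : b ∉ range (app i))
    (e : app g b = app g b') : b = b' := by
  by_contra hne
  obtain ⟨ψ, h1, h2, h3⟩ := hi.rel b hb b' hne
  obtain ⟨χ, -, h4, -⟩ := push_desc h h1 (Fn.zero X) h2
  exact h3 (by rw [← h4, ← h4, e])

theorem push_ne (h : IsPushout i u g k) (hi : TI i) {b : OnePoint B} (hb : b ∉ range (app i)) :
    app g b ∉ range (app k) := by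
  rintro ⟨x, hx⟩
  obtain ⟨ψ, h1, h2, h3⟩ := hi.rel' hb
  obtain ⟨χ, -, h4, h5⟩ := push_desc h h1 (Fn.zero X) h2
  exact h3 (by rw [← h4, ← hx, h5])

/-- Tame inclusions are stable under cobase change. -/
theorem TI.pushout (hi : TI i) (h : IsPushout i u g k) : TI k where
  inj := push_inj h hi.inj
  ext φ hφ := by
    obtain ⟨ψ, h1, h2⟩ := hi.ext _ (hφ.comp u)
    obtain ⟨χ, h3, -, h4⟩ := push_desc h h1 hφ h2
    exact ⟨χ, h3, h4⟩
  rel p hp p' hne := by
    obtain ⟨b, hb, rfl⟩ := (push_surj h p).resolve_left hp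
    rcases push_surj h p' with ⟨x, rfl⟩ | ⟨b', -, rfl⟩
    · obtain ⟨ψ, h1, h2, h3⟩ := hi.rel' hb
      obtain ⟨χ, h4, h5, h6⟩ := push_desc h h1 (Fn.zero X) h2
      exact ⟨χ, h4, h6, by rwa [h5, h6]⟩
    · obtain ⟨ψ, h1, h2, h3⟩ := hi.rel b hb b' (fun e => hne (congrArg _ e))
      obtain ⟨χ, h4, h5, h6⟩ := push_desc h h1 (Fn.zero X) h2
      exact ⟨χ, h4, h6, by rwa [h5, h5]⟩
  bd s hs := by
    refine push_ind h (fun s => Bdd X (app k ⁻¹' s)) (fun _ _ h1 h2 => h2.mono (preimage_mono h1))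
      (fun _ _ h1 h2 => h1.union h2) (fun s hs => ?_) (fun s hs => ?_) hs
    · refine ((hi.bd s hs).image u).mono ?_
      rintro x ⟨b, hb, e⟩
      by_cases hb' : b ∈ range (app i)
      · obtain ⟨a, rfl⟩ := hb'
        exact ⟨a, hb, push_inj h hi.inj ((push_w h a).symm.trans e)⟩
      · exact absurd ⟨x, e.symm⟩ (push_ne h hi hb')
    · rwa [preimage_image_eq _ (push_inj h hi.inj)]

/-- Pushouts of tame objects along tame inclusions are tame. -/
theorem Tame.pushout (hX : Tame X) (hB : Tame B) (hi : TI i) (h : IsPushout i u g k) :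
    Tame P := by
  have hk := hi.pushout h
  refine ⟨hk.sep hX, fun s hs => ?_⟩
  by_cases h1 : Bdd X (app k ⁻¹' s)
  · have h2 : ¬ Bdd B (app g ⁻¹' s \ range (app i)) := fun h2 =>
      hs (((h1.image k).union (h2.image g)).mono fun p hp => by
        rcases push_surj h p with ⟨x, rfl⟩ | ⟨b, hb, rfl⟩
        · exact Or.inl ⟨x, hp, rfl⟩
        · exact Or.inr ⟨b, ⟨hp, hb⟩, rfl⟩)
    refine fin_push g hB h2 (fun _ hx => hx.1) (fun _ hx _ _ e => push_eq h hi hx.2 e)
      fun b hb => ?_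
    refine Bdd.mono (t := app g ⁻¹' b \ range (app i)) ?_ fun x hx => ⟨hx.1, hx.2.2⟩
    refine push_ind h (fun s => Bdd B (app g ⁻¹' s \ range (app i)))
      (fun _ _ h1 h2 => h2.mono fun _ hx => ⟨h1 hx.1, hx.2⟩)
      (fun _ _ h1 h2 => (h1.union h2).mono fun _ hx =>
        hx.1.imp (fun h => ⟨h, hx.2⟩) fun h => ⟨h, hx.2⟩) (fun s hs => ?_) (fun s _ => ?_) hb
    · refine hs.mono ?_
      rintro x ⟨⟨y, hy, e⟩, hx⟩
      rwa [push_eq h hi hx e.symm]
    · refine (bdd_empty B).mono ?_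
      rintro x ⟨⟨y, -, e⟩, hx⟩
      exact push_ne h hi hx ⟨y, e⟩
  · exact fin_push k hX h1 (fun _ hx => hx) hk.inj.injOn
      fun b hb => (hk.bd b hb).mono inter_subset_left

end push

end Vale.Agent.P251CT
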